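import Vale.Agent.P163.Gap.Assembly
import Vale.Agent.P163.Gap.Exists

/-!
Exponential decay of the spin correlations for every `n ≥ 3` and every inverse temperature.
-/

noncomputable section

namespace Vale.Agent.Results.P163.ExponentialDecayAllBeta

open MeasureTheory Vale.Agent.P163 Vale.Agent.P163.Gap
open scoped RealInnerProductSpace

theorem result : ∀ (n : ℕ) [NeZero n], 3 ≤ n → ∀ β : ℝ, 0 < β →
    (∃ μ : Measure (ℤ × ℤ → Spin n), IsInfiniteVolumeState n β μ) ∧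
    ∃ C m : ℝ, 0 < C ∧ 0 < m ∧
    (∀ (Λ : Finset (ℤ × ℤ)) (x y : ↥Λ),
      twoPoint n β (boxBonds Λ) x y ≤ C * Real.exp (-m * siteDist x y)) ∧
    ∀ μ : Measure (ℤ × ℤ → Spin n), IsInfiniteVolumeState n β μ → ∀ x y : ℤ × ℤ,
      ∫ σ, ⟪(σ x : Euc n), (σ y : Euc n)⟫ ∂μ ≤ C * Real.exp (-m * siteDist x y) :=
  fun n _ hn β hβ => ⟨exists_infiniteVolumeState β, final_goal n hn β hβ⟩

end Vale.Agent.Results.P163.ExponentialDecayAllBeta
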